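import Vale.Agent.P216.H971Z.Frame
import Vale.Agent.P216.H456Z.Ht
import Vale.Agent.P216.H971.LowGood

/-!
# P216-B7, Z10: (F1) the reach and (F2) the contraction

The height is a uniformly continuous function on `PF b t`, so `XZ h p' t` is its graph.
-/

set_option linter.all false

open Set BoundedContinuousFunction

namespace Vale.Agent.P216.H313Z

open Vale.Agent.P216.Sl Vale.Agent.P216.PS Vale.Agent.P216.B7 Vale.Agent.P216.E2L
open Vale.Agent.P216.H456 (PF)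
open Vale.Agent.P216.H456Z Vale.Agent.P216.H971Z
open Vale.Agent.P216.AS (IsMap IsHtpy)
open Vale.Agent.P216.H901 (tr on)
open Vale.Agent.P216.H971.Low (exL_PF)

variable {M : Type} [MetricSpace M] {h : C(M, Circle)} {p' : M × ℝ} {t r s β : ℝ} {b : M}
  {w w' : ℝ →ᵇ M}

theorem lf_iff (hw : w ∈ PF b t) : Lf h t r β w ↔ HT h w r β := by
  constructor
  · rintro ⟨θ, h1, h2, h3, h4⟩
    exact ⟨θ, h1, fun u => (h2 u).symm, h3 0 le_rfl, t, h4⟩
  · rintro ⟨θ, h1, h2, h3, T, h4⟩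
    refine ⟨θ, h1, fun u => (h2 u).symm, fun u hu => lift_left h1 h2 h3 hw.2.1 hu, fun u hu =>
      lift_right h1 h2 h4 (fun v hv => ?_) hu⟩
    rw [hw.2.2 v hv, hw.2.2 t le_rfl]

theorem lip_PF (hw : w ∈ PF b t) : Lip w := hw.1

theorem near (H : HT h w r β) (H' : HT h w' s β) (hw : w ∈ PF b t) (hw' : w' ∈ PF b t)
    (hd : ∀ u, dist (h (w u)) (h (w' u)) < 1) : s = r + dlt h (w 0) (w' 0) := by
  refine HT.unique H' (HT.close H (lip_PF hw).continuous (lip_PF hw').continuous hd (T := t)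
    fun u hu => ?_)
  rw [hw.2.2 u hu, hw'.2.2 u hu]

open Classical in
/-- The height of the starting point. -/
noncomputable def hgt (h : C(M, Circle)) (β : ℝ) (w : ℝ →ᵇ M) : ℝ :=
  if H : ∃ r, HT h w r β then H.choose else 0

theorem HT.hgt_eq (H : HT h w r β) : hgt h β w = r := by
  have H' : ∃ r, HT h w r β := ⟨r, H⟩
  rw [hgt, dif_pos H']
  exact HT.unique H'.choose_spec H

variable [CompactSpace M]

theorem ht_hgt (hb : ex β = h b) (hw : w ∈ PF b t) : HT h w (hgt h β w) β := by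
  obtain ⟨C, -, H⟩ := exists_HT h t
  obtain ⟨r, hr, -⟩ := H w b β (lip_PF hw) hw.2.1 hw.2.2 hb
  rwa [HT.hgt_eq hr]

theorem hgt_uc (hb : ex β = h b) {ε : ℝ} (hε : 0 < ε) : ∃ δ > 0, ∀ w ∈ PF b t, ∀ w' ∈ PF b t,
    dist w w' < δ → |hgt h β w - hgt h β w'| < ε := by
  obtain ⟨δ, hδ, H⟩ := dlt_small h hε
  refine ⟨δ, hδ, fun w hw w' hw' hd => ?_⟩
  have h1 : ∀ u, dist (w u) (w' u) ≤ δ := fun u =>
    (BoundedContinuousFunction.dist_coe_le_dist u).trans hd.le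
  rw [near (ht_hgt hb hw) (ht_hgt hb hw') hw hw' fun u => (H _ _ (h1 u)).1, abs_sub_comm,
    add_sub_cancel_left]
  exact (H _ _ (h1 0)).2

theorem mem_XZ (hp' : p' ∈ Xt h) (hw : w ∈ PF p'.1 t) : (w, hgt h p'.2 w) ∈ XZ h p' t :=
  ⟨hw, (lf_iff hw).2 (ht_hgt (Eq.symm hp') hw)⟩

/-- The graph map. -/
theorem isMap_gr (hp' : p' ∈ Xt h) : IsMap (tr (ℝ →ᵇ M)) (tr ((ℝ →ᵇ M) × ℝ)) (PF p'.1 t)
    (XZ h p' t) fun w => (w, hgt h p'.2 w) where
  mapsX := fun w hw => mem_XZ hp' hw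
  eqv := fun i => i.elim
  uc := fun ε hε => by
    obtain ⟨δ, hδ, H⟩ := hgt_uc (t := t) (Eq.symm hp') hε
    refine ⟨min δ ε, lt_min hδ hε, fun w hw w' hw' hd => ?_⟩
    rw [Prod.dist_eq, max_lt_iff]
    exact ⟨hd.trans_le (min_le_right _ _), H w hw w' hw' (hd.trans_le (min_le_left _ _))⟩

theorem gr_fst {z : (ℝ →ᵇ M) × ℝ} (hz : z ∈ XZ h p' t) : (z.1, hgt h p'.2 z.1) = z :=
  Prod.ext rfl (HT.hgt_eq ((lf_iff hz.1).1 hz.2))

variable (M h)

/-- **(F1)** -/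
theorem f1Goal : F1Goal M h := by
  intro p' hp' t
  obtain ⟨C, hC, H⟩ := exists_HT h t
  refine ⟨|p'.2| + C, fun z hz => ?_⟩
  obtain ⟨r, hr, hrC⟩ := H z.1 p'.1 p'.2 (lip_PF hz.1) hz.1.2.1 hz.1.2.2 (Eq.symm hp')
  have h1 : HT h z.1 z.2 p'.2 := (lf_iff hz.1).1 hz.2
  have h2 : z.2 = r := HT.unique h1 hr
  refine ⟨?_, ?_⟩
  · show h (z.1 0) = ex z.2
    exact (HT.mem h1).symm
  · show |z.2| ≤ _
    rw [h2]
    have h3 := abs_add_le (r - p'.2) p'.2
    rw [sub_add_cancel] at h3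
    linarith

/-- **(F2)** -/
theorem f2Goal : F2Goal M h := by
  intro p' hp' t ht k _ q hq F hF
  have h1 : CocL (PF p'.1 t) q fun l => F (l.map fun w => (w, hgt h p'.2 w)) :=
    CocL.map (isMap_gr hp') hF
  obtain ⟨g, hg, δ, hδ, H⟩ := exL_PF p'.1 ht hq h1
  refine ⟨fun l => g (l.map Prod.fst), fun h0 => absurd h0 (by omega), δ, hδ, fun l hl hs => ?_⟩
  have e : (l.map Prod.fst).map (fun w => (w, hgt h p'.2 w)) = l := by
    rw [List.map_map]
    conv_rhs => rw [← List.map_id l]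
    exact List.map_congr_left fun z hz => gr_fst (hs.1 z hz)
  have h2 := H (l.map Prod.fst) (by rw [List.length_map, hl]) ⟨fun y hy => ?_,
    fun y hy y' hy' => ?_⟩
  · beta_reduce at h2
    rw [e] at h2
    rw [h2, dl_map]
  · obtain ⟨z, hz, rfl⟩ := List.mem_map.1 hy
    exact (hs.1 z hz).1
  · obtain ⟨z, hz, rfl⟩ := List.mem_map.1 hy
    obtain ⟨z', hz', rfl⟩ := List.mem_map.1 hy'
    refine lt_of_le_of_lt ?_ (hs.2 z hz z' hz')
    rw [Prod.dist_eq]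
    exact le_max_left _ _

end Vale.Agent.P216.H313Z
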